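import Vale.Agent.P022D.End.Mah

namespace Vale.Agent.P022E.End
export Vale.Agent.P022D.End (
  twc lim_tw poly_approx comp)
end Vale.Agent.P022E.End
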