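import Vale.Agent.P022D.End.Chi
import Vale.Agent.P022E.End.Mah

namespace Vale.Agent.P022E.End.KW2
export Vale.Agent.P022D.End.KW2 (
  pow one cont norm unr inv mul)
end Vale.Agent.P022E.End.KW2

namespace Vale.Agent.P022E.End
export Vale.Agent.P022D.End (
  norm_two surj_of_isometry chiE_frob chi norm_pow_sub chi_frob kw2_chi chi_mod KW2 zE
  chi_conj cyc_iff units4 sg4 chiE_conj sg4_mul chiE sqrt_char norm_zE ex_five norm_le_iff
  ex_log sg4_near chiE_coe ex_pow)
end Vale.Agent.P022E.End
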